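import Crest.Agent.X212.Crt72.Mass

/-! Radial mass (format free): data and statements.  `E₁ → E₀` are two Sobolev levels of the
extended configuration space (forms `(a, f)` and spinors), `j : E₀ → L²`, `P` is the projector
onto the spinors, `J` the complex structure on them, `e` the constant function. -/

set_option autoImplicit false
set_option linter.unusedSectionVars false

noncomputable section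

namespace Crest.Agent.X212.Rad96

open Set Filter Topology Function Module Asymptotics
open scoped InnerProductSpace
open Fred93 (Fr)
open Crt72 (Op SF)

section
variable {E₁ E₀ H : Type*} [NormedAddCommGroup E₁] [NormedSpace ℝ E₁] [CompleteSpace E₁]
  [NormedAddCommGroup E₀] [NormedSpace ℝ E₀] [CompleteSpace E₀]
  [NormedAddCommGroup H] [InnerProductSpace ℝ H]

/-- the linear data: `T = (*d, d, d*) ⊕ (D + h)`. -/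
structure Dat (i T : E₁ →L[ℝ] E₀) (j : E₀ →L[ℝ] H) (P₁ J₁ : E₁ →L[ℝ] E₁) (P J : E₀ →L[ℝ] E₀)
    (e : E₁) : Prop where
  inj : Injective i
  jinj : Injective j
  cpt : IsCompactOperator i
  fr : Fr T 0
  sym : ∀ u v, ⟪j (T u), j (i v)⟫_ℝ = ⟪j (i u), j (T v)⟫_ℝ
  iP : ∀ u, i (P₁ u) = P (i u)
  iJ : ∀ u, i (J₁ u) = J (i u)
  TP : ∀ u, T (P₁ u) = P (T u)
  TJ : ∀ u, T (J₁ u) = J (T u)
  Psym : ∀ x y, ⟪j (P x), j y⟫_ℝ = ⟪j x, j (P y)⟫_ℝ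
  Jskew : ∀ x y, ⟪j (J x), j y⟫_ℝ = -⟪j x, j (J y)⟫_ℝ
  PJ : ∀ x, P (J x) = J x
  JJ : ∀ x, J (J x) = -P x
  Pe : P₁ e = 0
  Te : T e = 0
  ne : ‖j (i e)‖ = 1
  frm : ∀ u, P₁ u = 0 → T u = 0 → ∃ s : ℝ, u = s • e

/-- the eigenspace of the Dirac part -/
def Eig (i T : E₁ →L[ℝ] E₀) (P₁ : E₁ →L[ℝ] E₁) (l : ℝ) : Submodule ℝ E₁ :=
  (P₁ - 1 : E₁ →L[ℝ] E₁).ker ⊓ (T - l • i : E₁ →L[ℝ] E₀).ker

theorem mem_Eig {i T : E₁ →L[ℝ] E₀} {P₁ : E₁ →L[ℝ] E₁} {l : ℝ} {u : E₁} :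
    u ∈ Eig i T P₁ l ↔ P₁ u = u ∧ T u = l • i u := by
  simp [Eig, sub_eq_zero]

/-- the spectrum of the Dirac part -/
def Spec (i T : E₁ →L[ℝ] E₀) (P₁ : E₁ →L[ℝ] E₁) : Set ℝ := {l | Eig i T P₁ l ≠ ⊥}

/-- all eigenvalues in `I` are simple (over `ℂ`) -/
def Simple (i T : E₁ →L[ℝ] E₀) (P₁ : E₁ →L[ℝ] E₁) (I : Set ℝ) : Prop :=
  ∀ l ∈ I, finrank ℝ (Eig i T P₁ l) ≤ 2

/-- the constant gauge transformation `e^{iθ}` -/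
def rot (P₁ J₁ : E₁ →L[ℝ] E₁) (θ : ℝ) (x : E₁) : E₁ :=
  x - P₁ x + Real.cos θ • P₁ x + Real.sin θ • J₁ x

/-- the quadratic terms: `R x y = ρ(form part of x) (spinor part of y)` (with `ρ(f) = f J`),
`Q x x = q(φ, φ)`. -/
structure Nl (i : E₁ →L[ℝ] E₀) (j : E₀ →L[ℝ] H) (P₁ J₁ : E₁ →L[ℝ] E₁) (P J : E₀ →L[ℝ] E₀)
    (e : E₁) (R Q : E₁ →L[ℝ] E₁ →L[ℝ] E₀) : Prop where
  RP : ∀ x y, R (P₁ x) y = 0
  RP' : ∀ x y, R x (P₁ y) = R x y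
  PR : ∀ x y, P (R x y) = R x y
  RJ : ∀ x y, R x (J₁ y) = J (R x y)
  Re : ∀ y, R e y = J (i y)
  Rc : ∀ y, IsCompactOperator (R.flip y)
  QP : ∀ x y, Q (P₁ x) (P₁ y) = Q x y
  PQ : ∀ x y, P (Q x y) = 0
  QJ : ∀ x, Q (J₁ x) (J₁ x) = Q x x
  QJ' : ∀ x, Q (J₁ x) x + Q x (J₁ x) = 0
  Qe : ∀ x, ⟪j (Q x x), j (i e)⟫_ℝ = 0

/-- the profile of the radial mass -/
structure Prof (b : ℝ → ℝ) (c₀ : ℝ) : Prop where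
  sm : ContDiff ℝ 1 b
  zero : b 0 = c₀
  neg : ∀ s ∈ Ico (0 : ℝ) 1, deriv b s < 0
  one : ∀ s, 1 ≤ s → b s = 0

/-- the rescaled equation (`t = δ²`, true spinor `δ P x`) -/
def Sol (i T : E₁ →L[ℝ] E₀) (j : E₀ →L[ℝ] H) (P : E₀ →L[ℝ] E₀) (R Q : E₁ →L[ℝ] E₁ →L[ℝ] E₀)
    (b : ℝ → ℝ) (t : ℝ) (x : E₁) : Prop :=
  T x + R x x + t • Q x x = b (‖j (P (i x))‖ ^ 2) • P (i x)

end

variable {X₁ X₀ : Type*} [NormedAddCommGroup X₁] [NormedSpace ℝ X₁] [CompleteSpace X₁]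
  [NormedAddCommGroup X₀] [InnerProductSpace ℝ X₀] [CompleteSpace X₀]

/-- the rank one operator `x ⊗ x` -/
def tt (x : X₀) : X₀ →L[ℝ] X₀ := (innerSL ℝ x).smulRight x

theorem tt_apply (x y : X₀) : tt x y = ⟪x, y⟫_ℝ • x := rfl

/-- masses: symmetric, complex linear, on the spinors; they separate (`ns`: true for all smooth
hermitian fields, as `x y* = 0` and `x x* = y y*` pointwise force `x = y = 0`). -/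
structure Mass {Λ : Type*} [NormedAddCommGroup Λ] [NormedSpace ℝ Λ] (P J : X₀ →L[ℝ] X₀)
    (hm : Λ →L[ℝ] X₀ →L[ℝ] X₀) : Prop where
  sym : ∀ w x y, ⟪hm w x, y⟫_ℝ = ⟪x, hm w y⟫_ℝ
  hP : ∀ w x, hm w (P x) = hm w x
  hJ : ∀ w x, hm w (J x) = J (hm w x)
  ns : ∀ x y, P x = x → P y = y → ‖x‖ = 1 → ‖y‖ = 1 →
    ∃ w, ⟪hm w x, y⟫_ℝ ≠ 0 ∨ ⟪hm w x, J y⟫_ℝ ≠ 0 ∨ ⟪hm w x, x⟫_ℝ ≠ ⟪hm w y, y⟫_ℝ
  one : ∃ w, hm w = P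

/-- **SPL**: simple spectrum in a window, `0` not an eigenvalue: open and dense. -/
def SplStmt : Prop :=
  ∀ {X₁ X₀ Λ : Type} [NormedAddCommGroup X₁] [NormedSpace ℝ X₁] [CompleteSpace X₁]
    [NormedAddCommGroup X₀] [InnerProductSpace ℝ X₀] [CompleteSpace X₀]
    [NormedAddCommGroup Λ] [NormedSpace ℝ Λ] {i T : X₁ →L[ℝ] X₀} {P₁ J₁ : X₁ →L[ℝ] X₁}
    {P J : X₀ →L[ℝ] X₀} {e : X₁} {hm : Λ →L[ℝ] X₀ →L[ℝ] X₀},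
    Dat i T (.id ℝ X₀) P₁ J₁ P J e → Mass P J hm → ∀ c : ℝ,
    IsOpen {w | Simple i (Op i T (hm w)) P₁ (Icc 0 c) ∧ 0 ∉ Spec i (Op i T (hm w)) P₁} ∧
    Dense {w | Simple i (Op i T (hm w)) P₁ (Icc 0 c) ∧ 0 ∉ Spec i (Op i T (hm w)) P₁}

/-- **DEG**: the extended Hessian at `(θ, l)` is invertible and has relative Morse index
`2 #(Spec ∩ (0, l))` over the fixed operator `h - e ⊗ e`. -/
def DegStmt : Prop :=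
  ∀ {X₁ X₀ : Type} [NormedAddCommGroup X₁] [NormedSpace ℝ X₁] [CompleteSpace X₁]
    [NormedAddCommGroup X₀] [InnerProductSpace ℝ X₀] [CompleteSpace X₀]
    {i L : X₁ →L[ℝ] X₀} {A : Submodule ℝ (X₀ →L[ℝ] X₀)}
    {sf : (X₀ →L[ℝ] X₀) → (X₀ →L[ℝ] X₀) → ℤ} {P₁ J₁ : X₁ →L[ℝ] X₁} {P J h c : X₀ →L[ℝ] X₀}
    {e u : X₁} {l β : ℝ} {a : ℝ → X₀ →L[ℝ] X₀},
    SF i L A sf → Dat i (Op i L h) (.id ℝ X₀) P₁ J₁ P J e → h ∈ A → P ∈ A → c ∈ A →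
    (∀ δ, a δ ∈ A) → 0 < l → 0 < β → u ≠ 0 → u ∈ Eig i (Op i L h) P₁ l →
    Simple i (Op i L h) P₁ (Icc 0 l) → 0 ∉ Spec i (Op i L h) P₁ →
    c (i e) = J (i u) → (∀ x, P (c (P x)) = 0) →
    ((fun δ => a δ - (h - l • P + β • tt (i u)) - δ • c) =o[𝓝[>] 0] fun δ : ℝ => δ) →
    h - tt (i e) ∈ A ∧ Bijective (Op i L (h - tt (i e))) ∧
    ∀ᶠ δ in 𝓝[>] (0 : ℝ), Bijective (Op i L (a δ)) ∧
      sf (h - tt (i e)) (a δ) = -2 * ((Spec i (Op i L h) P₁ ∩ Ioo 0 l).ncard : ℤ)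

/-- **IFT**: the critical points near the reducible. -/
def IftStmt : Prop :=
  ∀ {E₁ E₀ H : Type} [NormedAddCommGroup E₁] [NormedSpace ℝ E₁] [CompleteSpace E₁]
    [NormedAddCommGroup E₀] [NormedSpace ℝ E₀] [CompleteSpace E₀]
    [NormedAddCommGroup H] [InnerProductSpace ℝ H] {i T : E₁ →L[ℝ] E₀} {j : E₀ →L[ℝ] H}
    {P₁ J₁ : E₁ →L[ℝ] E₁} {P J : E₀ →L[ℝ] E₀} {e : E₁} {R Q : E₁ →L[ℝ] E₁ →L[ℝ] E₀}
    {b : ℝ → ℝ} {c₀ : ℝ},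
    Dat i T j P₁ J₁ P J e → Nl i j P₁ J₁ P J e R Q → Prof b c₀ → Simple i T P₁ (Icc 0 c₀) →
    0 ∉ Spec i T P₁ → c₀ ∉ Spec i T P₁ →
    (Spec i T P₁ ∩ Ioo 0 c₀).Finite ∧
    ∃ (u : ℝ → E₁) (x : ℝ → ℝ → E₁) (ε K : ℝ), 0 < ε ∧
      (∀ l ∈ Spec i T P₁ ∩ Ioo 0 c₀, u l ∈ Eig i T P₁ l ∧ ‖j (i (u l))‖ ^ 2 ∈ Ioo (0 : ℝ) 1 ∧
        b (‖j (i (u l))‖ ^ 2) = l) ∧
      ∀ t, |t| < ε →
        (∀ l ∈ Spec i T P₁ ∩ Ioo 0 c₀, Sol i T j P R Q b t (x l t) ∧ ‖x l t - u l‖ ≤ K * |t|) ∧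
        ∀ y, Sol i T j P R Q b t y → P₁ y ≠ 0 → ‖y - P₁ y‖ < ε →
          ∃ l ∈ Spec i T P₁ ∩ Ioo 0 c₀, ∃ θ, y = rot P₁ J₁ θ (x l t)

end Crest.Agent.X212.Rad96
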