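import Crest.Agent.X212.Rad96.Defs

/-! Radial mass: the linear algebra of `Dat`, limits of almost eigenvectors. -/

set_option autoImplicit false
set_option linter.unusedSectionVars false

noncomputable section

namespace Crest.Agent.X212.Rad96

open Set Filter Topology Function Module Asymptotics
open scoped InnerProductSpace
open Fred93 (Fr)

variable {E₁ E₀ H : Type*} [NormedAddCommGroup E₁] [NormedSpace ℝ E₁] [CompleteSpace E₁]
  [NormedAddCommGroup E₀] [NormedSpace ℝ E₀] [CompleteSpace E₀]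
  [NormedAddCommGroup H] [InnerProductSpace ℝ H]

theorem cpt_smulRight (f : E₁ →L[ℝ] ℝ) (y : E₀) : IsCompactOperator (f.smulRight y) :=
  (isCompactOperator_of_locallyCompactSpace_dom f).clm_comp (ContinuousLinearMap.toSpanSingleton ℝ y)

namespace Dat

variable {i T : E₁ →L[ℝ] E₀} {j : E₀ →L[ℝ] H} {P₁ J₁ : E₁ →L[ℝ] E₁} {P J : E₀ →L[ℝ] E₀} {e : E₁}
  (D : Dat i T j P₁ J₁ P J e)
include D

theorem PP (x : E₀) : P (P x) = P x := by
  have := D.PJ (J x)
  rw [D.JJ, map_neg] at this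
  exact neg_injective this

theorem JP (x : E₀) : J (P x) = J x := by
  have := D.JJ (J x)
  rw [D.JJ x, map_neg, D.PJ] at this
  exact neg_injective this

theorem PP₁ (x : E₁) : P₁ (P₁ x) = P₁ x := D.inj (by rw [D.iP, D.iP, D.PP])
theorem JP₁ (x : E₁) : J₁ (P₁ x) = J₁ x := D.inj (by rw [D.iJ, D.iP, D.JP, D.iJ])
theorem PJ₁ (x : E₁) : P₁ (J₁ x) = J₁ x := D.inj (by rw [D.iP, D.iJ, D.PJ])
theorem JJ₁ (x : E₁) : J₁ (J₁ x) = -P₁ x := D.inj (by rw [D.iJ, D.iJ, D.JJ, map_neg, D.iP])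
theorem Pie : P (i e) = 0 := by rw [← D.iP, D.Pe, map_zero]
theorem Je : J₁ e = 0 := by rw [← D.JP₁, D.Pe, map_zero]

theorem ip_Pe (x : E₀) : ⟪j (P x), j (i e)⟫_ℝ = 0 := by
  rw [D.Psym, D.Pie, map_zero, inner_zero_right]

theorem ip_Je (x : E₀) : ⟪j (J x), j (i e)⟫_ℝ = 0 := by rw [← D.PJ, D.ip_Pe]

theorem ip_Te (x : E₁) : ⟪j (T x), j (i e)⟫_ℝ = 0 := by
  rw [D.sym, D.Te, map_zero, inner_zero_right]

theorem ip_ee : ⟪j (i e), j (i e)⟫_ℝ = 1 := by rw [real_inner_self_eq_norm_sq, D.ne, one_pow]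

theorem ip_J (x : E₀) : ⟪j (J x), j x⟫_ℝ = 0 := by
  have := D.Jskew x x
  rw [real_inner_comm (j (J x))] at this
  linarith

theorem ip_JJ (x y : E₀) : ⟪j (J x), j (J y)⟫_ℝ = ⟪j x, j (P y)⟫_ℝ := by
  rw [D.Jskew, D.JJ, map_neg, inner_neg_right, neg_neg]

theorem ji_ne {u : E₁} (h : u ≠ 0) : j (i u) ≠ 0 := fun h' =>
  h (D.inj (D.jinj (by rw [h', map_zero, map_zero])))

theorem ip_pos {u : E₁} (h : u ≠ 0) : 0 < ⟪j (i u), j (i u)⟫_ℝ :=
  real_inner_self_pos.2 (D.ji_ne h)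

theorem fr_sub (l : ℝ) : Fr (T - l • i) 0 := by
  have := D.fr.add_compact (T := -(l • i)) (D.cpt.smul l).neg
  rwa [← sub_eq_add_neg] at this

theorem fd_Eig (l : ℝ) : FiniteDimensional ℝ (Eig i T P₁ l) :=
  have := (D.fr_sub l).1.finite_ker
  Submodule.finiteDimensional_of_le inf_le_right

theorem J_mem {l : ℝ} {u : E₁} (h : u ∈ Eig i T P₁ l) : J₁ u ∈ Eig i T P₁ l := by
  rw [mem_Eig] at h ⊢
  exact ⟨D.PJ₁ u, by rw [D.TJ, h.2, map_smul, D.iJ]⟩

/-- eigenvectors of different eigenvalues are orthogonal -/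
theorem orth {l l' : ℝ} {u v : E₁} (hu : u ∈ Eig i T P₁ l) (hv : v ∈ Eig i T P₁ l') (h : l ≠ l') :
    ⟪j (i u), j (i v)⟫_ℝ = 0 := by
  have := D.sym u v
  rw [(mem_Eig.1 hu).2, (mem_Eig.1 hv).2, map_smul, map_smul, real_inner_smul_left,
    real_inner_smul_right] at this
  exact (mul_eq_mul_right_iff.1 this).resolve_left h

/-- a simple eigenspace is a complex line -/
theorem span {l : ℝ} {u v : E₁} (hs : finrank ℝ (Eig i T P₁ l) ≤ 2) (hu : u ∈ Eig i T P₁ l)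
    (h0 : u ≠ 0) (hv : v ∈ Eig i T P₁ l) : ∃ α β : ℝ, v = α • u + β • J₁ u := by
  have := D.fd_Eig l
  have hp := D.ip_pos h0
  have hli : LinearIndependent ℝ ![(⟨u, hu⟩ : Eig i T P₁ l), ⟨J₁ u, D.J_mem hu⟩] := by
    rw [LinearIndependent.pair_iff]
    intro s t hst
    have h1 : s • u + t • J₁ u = 0 := congrArg Subtype.val hst
    have h2 := congrArg (fun z => ⟪j (i z), j (i u)⟫_ℝ) h1
    have h3 := congrArg (fun z => ⟪j (i z), j (J (i u))⟫_ℝ) h1
    have h4 := D.ip_J (i u)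
    have h5 := D.ip_JJ (i u) (i u)
    rw [← D.iP, (mem_Eig.1 hu).1] at h5
    simp only [map_add, map_smul, inner_add_left, real_inner_smul_left, D.iJ, h4, h5, map_zero,
      inner_zero_left, mul_zero, add_zero, real_inner_comm (j (J (i u))) (j (i u)), zero_add]
      at h2 h3
    exact ⟨(mul_eq_zero.1 h2).resolve_right hp.ne', (mul_eq_zero.1 h3).resolve_right hp.ne'⟩
  have hc := hli.fintype_card_le_finrank
  have ht := hli.span_eq_top_of_card_eq_finrank' (by simp at hc ⊢; omega)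
  have hm : (⟨v, hv⟩ : Eig i T P₁ l) ∈ Submodule.span ℝ
      (range ![(⟨u, hu⟩ : Eig i T P₁ l), ⟨J₁ u, D.J_mem hu⟩]) := ht ▸ Submodule.mem_top
  rw [Matrix.range_cons, Matrix.range_cons, Matrix.range_empty, union_empty, singleton_union,
    Submodule.mem_span_pair] at hm
  obtain ⟨a, b, h⟩ := hm
  exact ⟨a, b, (congrArg Subtype.val h).symm⟩

/-- the Green operator on spinors, for a number outside the spectrum -/
theorem green {l : ℝ} (h0 : l ∉ Spec i T P₁) :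
    ∃ G : E₀ →L[ℝ] E₁, ∀ v, P₁ v = v → G (T v - l • i v) = v := by
  let T' : E₁ →L[ℝ] E₀ := T + ((innerSL ℝ (j (i e)) ∘L j ∘L i).smulRight (i e) - l • (P ∘L i))
  have hT' : ∀ x, T' x = T x + (⟪j (i e), j (i x)⟫_ℝ • i e - l • P (i x)) := fun x => rfl
  have hf : Fr T' 0 := D.fr.add_compact ((cpt_smulRight _ _).sub ((D.cpt.clm_comp P).smul l))
  have hi : Injective T' := by
    rw [injective_iff_map_eq_zero]
    intro x hx
    rw [hT'] at hx
    have h1 := congrArg (fun z => ⟪j z, j (i e)⟫_ℝ) hx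
    simp only [map_add, map_sub, map_smul, inner_add_left, inner_sub_left, real_inner_smul_left,
      D.ip_Te, D.ip_ee, D.ip_Pe, map_zero, inner_zero_left, mul_zero, sub_zero, zero_add,
      mul_one] at h1
    rw [h1, zero_smul, zero_sub, ← sub_eq_add_neg, sub_eq_zero] at hx
    have h2 : P₁ x = 0 := by
      have : P₁ x ∈ Eig i T P₁ l :=
        mem_Eig.2 ⟨D.PP₁ x, by rw [D.TP, hx, map_smul, D.PP, D.iP]⟩
      rwa [not_not.1 h0, Submodule.mem_bot] at this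
    obtain ⟨s, rfl⟩ := D.frm x h2 (by rw [hx, ← D.iP, h2, map_zero, smul_zero])
    rw [map_smul, map_smul, real_inner_smul_right, D.ip_ee, mul_one] at h1
    rw [h1, zero_smul]
  let B := ContinuousLinearEquiv.ofBijective T' (LinearMap.ker_eq_bot.2 hi)
    (LinearMap.range_eq_top.2 (hf.surj_of_inj hi))
  refine ⟨B.symm, fun v hv => ?_⟩
  have : T v - l • i v = B v := by
    change _ = T' v
    rw [hT', ← hv, D.iP, real_inner_comm, D.ip_Pe, zero_smul, zero_sub, D.PP, sub_eq_add_neg]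
  rw [this]
  exact B.symm_apply_apply v

/-- **limits of almost eigenvectors** -/
theorem lim (h0 : 0 ∉ Spec i T P₁) {α : Type*} (U : Ultrafilter α) {w : α → E₁} {β : α → ℝ}
    {K : Set ℝ} (hK : IsCompact K) (hw : ∀ᶠ a in U, P₁ (w a) = w a ∧ ‖w a‖ = 1 ∧ β a ∈ K)
    (hT : Tendsto (fun a => T (w a) - β a • i (w a)) U (𝓝 0)) :
    ∃ l ∈ K, ∃ v ∈ Eig i T P₁ l, ‖v‖ = 1 ∧ Tendsto w U (𝓝 v) ∧ Tendsto β U (𝓝 l) := by
  obtain ⟨G, hG⟩ := D.green h0
  simp only [zero_smul, sub_zero] at hG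
  obtain ⟨l, hl, h1⟩ := hK.ultrafilter_le_nhds (U.map β)
    (le_principal_iff.2 (hw.mono fun a h => h.2.2))
  have h1' : Tendsto β U (𝓝 l) := h1
  obtain ⟨C, hC, hs⟩ := D.cpt.image_closedBall_subset_compact (f := (i : E₁ →ₗ[ℝ] E₀)) 1
  obtain ⟨z, -, h2⟩ := hC.ultrafilter_le_nhds (U.map fun a => i (w a))
    (le_principal_iff.2 (hw.mono fun a h => hs ⟨w a, by simp [h.2.1], rfl⟩))
  have h2' : Tendsto (fun a => i (w a)) U (𝓝 z) := h2
  have h3 : Tendsto (fun a => T (w a)) U (𝓝 (l • z)) := by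
    simpa using hT.add (h1'.smul h2')
  have h4 : Tendsto w U (𝓝 (G (l • z))) :=
    ((G.continuous.tendsto _).comp h3).congr' (hw.mono fun a h => hG _ h.1)
  refine ⟨l, hl, G (l • z), mem_Eig.2 ⟨?_, ?_⟩, ?_, h4, h1'⟩
  · exact tendsto_nhds_unique (((P₁.continuous.tendsto _).comp h4).congr'
      (hw.mono fun a h => h.1)) h4
  · rw [tendsto_nhds_unique ((i.continuous.tendsto _).comp h4) h2']
    exact tendsto_nhds_unique ((T.continuous.tendsto _).comp h4) h3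
  · exact tendsto_nhds_unique h4.norm (tendsto_const_nhds.congr' (hw.mono fun a h => h.2.1.symm))

omit D in
theorem exists_unit {l : ℝ} (h : l ∈ Spec i T P₁) : ∃ w ∈ Eig i T P₁ l, ‖w‖ = 1 := by
  obtain ⟨v, hv, h0⟩ := (Submodule.ne_bot_iff _).1 h
  exact ⟨‖v‖⁻¹ • v, Submodule.smul_mem _ _ hv, norm_smul_inv_norm h0⟩

/-- the spectrum is locally finite -/
theorem finite (h0 : 0 ∉ Spec i T P₁) {K : Set ℝ} (hK : IsCompact K) :
    (Spec i T P₁ ∩ K).Finite := by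
  by_contra hinf
  have : Infinite (Spec i T P₁ ∩ K : Set ℝ) := Set.infinite_coe_iff.2 hinf
  choose w hw hn using fun l : (Spec i T P₁ ∩ K : Set ℝ) => exists_unit l.2.1
  obtain ⟨l, -, v, hv, h1, h2, -⟩ := D.lim h0 (hyperfilter _) (w := w)
    (β := fun l => l.1) hK (.of_forall fun l => ⟨(mem_Eig.1 (hw l)).1, hn l, l.2.2⟩)
    (tendsto_const_nhds.congr fun l => by rw [(mem_Eig.1 (hw l)).2, sub_self])
  have h3 := (((j.continuous.comp i.continuous).tendsto _).comp h2).inner (𝕜 := ℝ)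
    (tendsto_const_nhds (x := j (i v)))
  have h4 : ∀ᶠ a : (Spec i T P₁ ∩ K : Set ℝ) in hyperfilter (Spec i T P₁ ∩ K : Set ℝ), a.1 ≠ l := by
    refine hyperfilter_le_cofinite ?_
    refine Set.Subsingleton.finite fun a ha b hb => Subtype.ext ?_
    rw [not_not.1 ha, not_not.1 hb]
  have h5 := tendsto_nhds_unique h3
    (tendsto_const_nhds.congr' (h4.mono fun a h => (D.orth (hw a) hv h).symm))
  exact (D.ip_pos (by rintro rfl; simp at h1)).ne' h5

end Dat

end Crest.Agent.X212.Rad96
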