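import Crest.Agent.X212.Rad96.Lin

/-! Radial mass: the critical points near the reducible. -/

set_option autoImplicit false
set_option linter.unusedSectionVars false

noncomputable section

namespace Crest.Agent.X212.Rad96

open Set Filter Topology Function Module Asymptotics
open scoped InnerProductSpace
open Fred93 (Fr)

namespace Prof

variable {b : ℝ → ℝ} {c₀ : ℝ} (B : Prof b c₀)
include B

theorem anti : StrictAntiOn b (Icc 0 1) :=
  strictAntiOn_of_deriv_neg (convex_Icc 0 1) B.sm.continuous.continuousOn fun s hs => by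
    rw [interior_Icc] at hs
    exact B.neg s ⟨hs.1.le, hs.2⟩

theorem mem {s : ℝ} (hs : 0 ≤ s) : b s ∈ Icc 0 c₀ := by
  have h0 : (0 : ℝ) ∈ Icc (0 : ℝ) 1 := ⟨le_rfl, zero_le_one⟩
  have h1 : (1 : ℝ) ∈ Icc (0 : ℝ) 1 := ⟨zero_le_one, le_rfl⟩
  have e1 := B.one 1 le_rfl
  have e0 := B.zero
  rcases le_total 1 s with h | h
  · have := B.anti h0 h1 zero_lt_one
    rw [B.one s h]
    exact ⟨le_rfl, by linarith⟩
  · exact ⟨e1 ▸ B.anti.antitoneOn ⟨hs, h⟩ h1 h, e0 ▸ B.anti.antitoneOn h0 ⟨hs, h⟩ hs⟩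

theorem exists_eq {l : ℝ} (hl : l ∈ Ioo 0 c₀) : ∃ s ∈ Ioo (0 : ℝ) 1, b s = l :=
  intermediate_value_Ioo' zero_le_one B.sm.continuous.continuousOn
    (by rwa [B.one 1 le_rfl, B.zero])

end Prof

variable {E₁ E₀ H : Type*} [NormedAddCommGroup E₁] [NormedSpace ℝ E₁] [CompleteSpace E₁]
  [NormedAddCommGroup E₀] [NormedSpace ℝ E₀] [CompleteSpace E₀]
  [NormedAddCommGroup H] [InnerProductSpace ℝ H]
  {i T : E₁ →L[ℝ] E₀} {j : E₀ →L[ℝ] H} {P₁ J₁ : E₁ →L[ℝ] E₁} {P J : E₀ →L[ℝ] E₀} {e : E₁}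
  {R Q : E₁ →L[ℝ] E₁ →L[ℝ] E₀} {b : ℝ → ℝ} {c₀ : ℝ}

namespace Dat

variable (D : Dat i T j P₁ J₁ P J e)
include D

theorem P_rot (θ : ℝ) (x : E₁) :
    P₁ (rot P₁ J₁ θ x) = Real.cos θ • P₁ x + Real.sin θ • J₁ x := by
  simp [rot, D.PP₁, D.PJ₁]

theorem J_rot (θ : ℝ) (x : E₁) :
    J₁ (rot P₁ J₁ θ x) = Real.cos θ • J₁ x - Real.sin θ • P₁ x := by
  simp [rot, D.JP₁, D.JJ₁, sub_eq_add_neg]

theorem rot_rot (θ : ℝ) (x : E₁) : rot P₁ J₁ θ (rot P₁ J₁ (-θ) x) = x := by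
  rw [rot, D.P_rot, D.J_rot, rot, Real.cos_neg, Real.sin_neg]
  have h := Real.cos_sq_add_sin_sq θ
  have : x = x - P₁ x + (Real.cos θ ^ 2 + Real.sin θ ^ 2) • P₁ x := by rw [h]; simp
  conv_rhs => rw [this]
  module

theorem norm_rot (θ : ℝ) (x : E₁) :
    ‖j (P (i (rot P₁ J₁ θ x)))‖ ^ 2 = ‖j (P (i x))‖ ^ 2 := by
  rw [← D.iP, D.P_rot, ← real_inner_self_eq_norm_sq, ← real_inner_self_eq_norm_sq]
  have h1 := D.ip_J (P (i x))
  have h2 := D.ip_JJ (P (i x)) (P (i x))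
  rw [D.JP] at h1 h2
  rw [D.PP] at h2
  simp only [map_add, map_smul, D.iP, D.iJ, inner_add_left, inner_add_right, real_inner_smul_left,
    real_inner_smul_right, h1, h2, real_inner_comm (j (J (i x))) (j (P (i x)))]
  linear_combination ⟪j (P (i x)), j (P (i x))⟫_ℝ * Real.cos_sq_add_sin_sq θ

variable (N : Nl i j P₁ J₁ P J e R Q)
include N

/-- the spinor part of the equation -/
theorem sol_P {t : ℝ} {x : E₁} (h : Sol i T j P R Q b t x) :
    T (P₁ x) + R (x - P₁ x) (P₁ x) = b (‖j (P (i x))‖ ^ 2) • i (P₁ x) := by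
  have := congrArg P h
  rw [map_add, map_add, map_smul, map_smul, N.PQ, N.PR, D.PP, smul_zero, add_zero] at this
  rw [D.TP, D.iP, map_sub, sub_apply, N.RP, sub_zero, N.RP', this]

theorem sol_rot {t : ℝ} {x : E₁} (h : Sol i T j P R Q b t x) (θ : ℝ) :
    Sol i T j P R Q b t (rot P₁ J₁ θ x) := by
  have h1 := congrArg P h
  have h2 := congrArg J h
  rw [map_add, map_add, map_smul, map_smul, N.PQ, N.PR, D.PP, smul_zero, add_zero] at h1
  rw [map_add, map_add, map_smul, map_smul, ← D.JP (Q x x), N.PQ, map_zero, D.JP, smul_zero,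
    add_zero] at h2
  have hQ : Q (rot P₁ J₁ θ x) (rot P₁ J₁ θ x) = Q x x := by
    have a1 : Q (P₁ x) (J₁ x) = Q x (J₁ x) := by rw [← N.QP x, D.PJ₁]
    have a2 : Q (J₁ x) (P₁ x) = -Q x (J₁ x) := by
      rw [← eq_neg_of_add_eq_zero_left (N.QJ' x), ← N.QP _ x, D.PJ₁]
    rw [← N.QP, D.P_rot]
    simp only [map_add, map_smul, add_apply, smul_apply, N.QP, N.QJ, a1, a2]
    have : Q x x = (Real.cos θ ^ 2 + Real.sin θ ^ 2) • Q x x := by
      rw [Real.cos_sq_add_sin_sq, one_smul]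
    conv_rhs => rw [this]
    module
  have hR : R (rot P₁ J₁ θ x) (rot P₁ J₁ θ x) =
      Real.cos θ • R x x + Real.sin θ • J (R x x) := by
    have a1 : ∀ y, R (J₁ x) y = 0 := fun y => by rw [← D.PJ₁, N.RP]
    rw [← N.RP', D.P_rot, rot]
    simp only [map_add, map_sub, map_smul, add_apply, sub_apply, smul_apply, N.RP, a1, N.RP', N.RJ,
      smul_zero, add_zero, sub_zero]
  unfold Sol at h ⊢
  rw [D.norm_rot, hQ, hR, ← D.iP (rot _ _ _ _), D.P_rot, rot]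
  simp only [map_add, map_sub, map_smul, D.TP, D.TJ, D.iP, D.iJ]
  linear_combination (norm := module) h + (Real.cos θ - 1) • h1 + Real.sin θ • h2

/-- the implicit function theorem at one simple eigenvalue -/
theorem loc (B : Prof b c₀) {l : ℝ} {u : E₁} (hu : u ∈ Eig i T P₁ l)
    (hs : finrank ℝ (Eig i T P₁ l) ≤ 2) (h1 : ‖j (i u)‖ ^ 2 ∈ Ioo (0 : ℝ) 1)
    (h2 : b (‖j (i u)‖ ^ 2) = l) :
    ∃ (x : ℝ → E₁) (K : ℝ), (∀ᶠ t in 𝓝 (0 : ℝ), Sol i T j P R Q b t (x t) ∧ ‖x t - u‖ ≤ K * |t|) ∧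
      ∀ᶠ z in 𝓝 ((0 : ℝ), u), Sol i T j P R Q b z.1 z.2 → ⟪j (J (i u)), j (i z.2)⟫_ℝ = 0 →
        z.2 = x z.1 := by
  obtain ⟨hP, hT⟩ := mem_Eig.1 hu
  have hPi : P (i u) = i u := by rw [← D.iP, hP]
  have h0 : u ≠ 0 := by
    rintro rfl
    simpa using h1.1
  have hp := D.ip_pos h0
  let f : E₁ →L[ℝ] ℝ := innerSL ℝ (j (J (i u))) ∘L j ∘L i
  let g : E₁ →L[ℝ] ℝ := innerSL ℝ (j (i u)) ∘L j ∘L P ∘L i
  let G : ℝ × E₁ → E₀ := fun z => T z.2 + R z.2 z.2 + z.1 • Q z.2 z.2 -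
    b (‖j (P (i z.2))‖ ^ 2) • P (i z.2) + f z.2 • i e
  set β := deriv b (‖j (i u)‖ ^ 2) with hβ
  have hβ0 : β < 0 := B.neg _ ⟨h1.1.le, h1.2⟩
  let A : E₁ →L[ℝ] E₀ := T + (R.flip u - l • (P ∘L i) - ((2 * β) • g).smulRight (i u) +
    f.smulRight (i e))
  have hA : ∀ x, A x = T x + (R x u - l • P (i x) - (2 * β * ⟪j (i u), j (P (i x))⟫_ℝ) • i u +
    ⟪j (J (i u)), j (i x)⟫_ℝ • i e) := fun x => rfl
  have hAf : Fr A 0 := D.fr.add_compact ((((N.Rc u).sub ((D.cpt.clm_comp P).smul l)).sub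
    (cpt_smulRight _ _)).add (cpt_smulRight _ _))
  have hAi : Injective A := by
    rw [injective_iff_map_eq_zero]
    intro x hx
    rw [hA] at hx
    have a1 := congrArg (fun z => ⟪j z, j (i e)⟫_ℝ) hx
    have r1 : ⟪j (R x u), j (i e)⟫_ℝ = 0 := by rw [← N.PR, D.ip_Pe]
    have r2 : ⟪j (i u), j (i e)⟫_ℝ = 0 := by rw [← hPi, D.ip_Pe]
    simp only [map_add, map_sub, map_smul, inner_add_left, inner_sub_left, real_inner_smul_left,
      D.ip_Te, D.ip_ee, D.ip_Pe, r1, r2, map_zero, inner_zero_left, mul_zero, sub_zero, zero_add,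
      mul_one] at a1
    rw [a1, zero_smul, add_zero] at hx
    have a2 := congrArg P hx
    rw [map_add, map_sub, map_sub, map_smul, map_smul, N.PR, D.PP, hPi, map_zero, ← D.TP] at a2
    obtain ⟨s, hs'⟩ := D.frm (x - P₁ x) (by rw [map_sub, D.PP₁, sub_self]) (by
      rw [map_sub]; linear_combination (norm := module) hx - a2)
    have a3 : R x u = s • J (i u) := by
      rw [← N.Re, ← smul_apply, ← map_smul, ← hs', map_sub, sub_apply, N.RP, sub_zero]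
    rw [a3] at a2
    have a4 := congrArg (fun z => ⟪j z, j (J (i u))⟫_ℝ) a2
    have a5 := congrArg (fun z => ⟪j z, j (i u)⟫_ℝ) a2
    have r3 : ⟪j (T (P₁ x)), j (J (i u))⟫_ℝ = l * ⟪j (P (i x)), j (J (i u))⟫_ℝ := by
      rw [← D.iJ, D.sym, D.TJ, hT, map_smul, map_smul, real_inner_smul_right, D.iP, D.iJ]
    have r4 : ⟪j (T (P₁ x)), j (i u)⟫_ℝ = l * ⟪j (P (i x)), j (i u)⟫_ℝ := by
      rw [D.sym, hT, map_smul, real_inner_smul_right, D.iP]
    have r5 := D.ip_J (i u)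
    have r6 := D.ip_JJ (i u) (i u)
    rw [hPi] at r6
    simp only [map_add, map_sub, map_smul, inner_add_left, inner_sub_left, real_inner_smul_left,
      r3, r4, r5, r6, real_inner_comm (j (J (i u))) (j (i u)), map_zero, inner_zero_left] at a4 a5
    have s0 : s = 0 := (mul_eq_zero.1 (by linarith : s * ⟪j (i u), j (i u)⟫_ℝ = 0)).resolve_right hp.ne'
    have g0 : ⟪j (i u), j (P (i x))⟫_ℝ = 0 := by
      have : 2 * β * ⟪j (i u), j (P (i x))⟫_ℝ * ⟪j (i u), j (i u)⟫_ℝ = 0 := by linarith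
      exact (mul_eq_zero.1 ((mul_eq_zero.1 this).resolve_right hp.ne')).resolve_left (by linarith)
    rw [s0, zero_smul, sub_eq_zero] at hs'
    rw [s0, g0, mul_zero, zero_smul, zero_smul, sub_zero, zero_sub, ← sub_eq_add_neg, sub_eq_zero,
      ← D.iP] at a2
    obtain ⟨α, γ, h⟩ := D.span hs hu h0 (mem_Eig.2 ⟨D.PP₁ x, a2⟩)
    rw [← hs'] at h
    rw [← D.iP, ← hs', h] at g0
    rw [h] at a1
    simp only [map_add, map_smul, inner_add_right, real_inner_smul_right, D.iJ, r5, r6,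
      real_inner_comm (j (J (i u))) (j (i u)), mul_zero, add_zero, zero_add] at a1 g0
    rw [h, (mul_eq_zero.1 a1).resolve_right hp.ne', (mul_eq_zero.1 g0).resolve_right hp.ne']
    simp
  have hAs := hAf.surj_of_inj hAi
  let G' : ℝ × E₁ →L[ℝ] E₀ := A ∘L .snd ℝ ℝ E₁ + (ContinuousLinearMap.fst ℝ ℝ E₁).smulRight (Q u u)
  have hG : HasStrictFDerivAt G G' (0, u) := by
    have s2 : HasStrictFDerivAt (fun z : ℝ × E₁ => z.2) (.snd ℝ ℝ E₁) (0, u) := hasStrictFDerivAt_snd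
    have s1 : HasStrictFDerivAt (fun z : ℝ × E₁ => z.1) (.fst ℝ ℝ E₁) (0, u) := hasStrictFDerivAt_fst
    have c1 := T.hasStrictFDerivAt.comp _ s2
    have c2 := (R.hasStrictFDerivAt.comp _ s2).clm_apply s2
    have c3 := s1.smul ((Q.hasStrictFDerivAt.comp _ s2).clm_apply s2)
    have c4 := (P ∘L i).hasStrictFDerivAt.comp _ s2
    have c5 := (hasStrictFDerivAt_norm_sq _).comp _ (j.hasStrictFDerivAt.comp _ c4)
    have c6 : HasStrictDerivAt b β (‖j ((P ∘L i) u)‖ ^ 2) := by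
      have : j ((P ∘L i) u) = j (i u) := congrArg j hPi
      rw [this]
      exact B.sm.hasStrictDerivAt one_ne_zero
    have c7 := (HasStrictDerivAt.comp_hasStrictFDerivAt
      (f := fun x : ℝ × E₁ => ‖j ((P ∘L i) x.2)‖ ^ 2) (0, u) c6 c5).smul c4
    have c8 := (f.hasStrictFDerivAt.comp _ s2).smul_const (i e)
    refine ((((c1.add c2).add c3).sub c7).add c8).congr_fderiv ?_
    have r0 : ∀ y, R u y = 0 := fun y => by rw [← hP, N.RP]
    ext x
    · simp [G']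
    · simp [G', hA, hPi, h2, r0, f]
      module
  let Φ' : ℝ × E₁ →L[ℝ] ℝ × E₀ := (ContinuousLinearMap.fst ℝ ℝ E₁).prod G'
  have hb : Bijective Φ' := by
    constructor
    · rw [injective_iff_map_eq_zero]
      rintro ⟨t, x⟩ h
      obtain ⟨rfl, h'⟩ : t = 0 ∧ A x + t • Q u u = 0 := Prod.mk.inj h
      rw [zero_smul, add_zero] at h'
      rw [hAi (h'.trans (map_zero A).symm)]
      rfl
    · rintro ⟨t, y⟩
      obtain ⟨x, hx⟩ := hAs (y - t • Q u u)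
      refine ⟨(t, x), Prod.ext rfl ?_⟩
      change A x + t • Q u u = y
      rw [hx, sub_add_cancel]
  let Φe := ContinuousLinearEquiv.ofBijective Φ' (LinearMap.ker_eq_bot.2 hb.1)
    (LinearMap.range_eq_top.2 hb.2)
  have hΦ : HasStrictFDerivAt (fun z : ℝ × E₁ => (z.1, G z)) (Φe : ℝ × E₁ →L[ℝ] ℝ × E₀) (0, u) :=
    hasStrictFDerivAt_fst.prodMk hG
  have hG0 : G (0, u) = 0 := by
    have : f u = 0 := D.ip_J (i u)
    simp only [G, this, hPi, h2, hT, zero_smul, add_zero]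
    rw [← hP, N.RP, add_zero, sub_self]
  have hc : Tendsto (fun t : ℝ => (t, (0 : E₀))) (𝓝 0) (𝓝 ((0 : ℝ), G (0, u))) := by
    rw [hG0]
    exact (continuous_id.prodMk continuous_const).tendsto' _ _ rfl
  obtain ⟨K, hK⟩ := hΦ.to_localInverse.hasFDerivAt.isBigO_sub.bound
  refine ⟨fun t => (hΦ.localInverse _ _ _ (t, 0)).2, K, ?_, ?_⟩
  · filter_upwards [hc.eventually hΦ.eventually_right_inverse, hc.eventually hK] with t a1 a2
    obtain ⟨a3, a4⟩ := Prod.mk.inj a1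
    set z := hΦ.localInverse _ _ _ (t, 0)
    constructor
    · have a5 := congrArg (fun y => ⟪j y, j (i e)⟫_ℝ) a4
      have r1 : ⟪j (R z.2 z.2), j (i e)⟫_ℝ = 0 := by rw [← N.PR, D.ip_Pe]
      simp only [G, map_add, map_sub, map_smul, inner_add_left, inner_sub_left,
        real_inner_smul_left, D.ip_Te, D.ip_ee, D.ip_Pe, r1, N.Qe, map_zero, inner_zero_left,
        mul_zero, sub_zero, zero_add, mul_one] at a5
      simp only [G, a5, zero_smul, add_zero, sub_eq_zero, a3] at a4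
      exact a4
    · rw [hΦ.localInverse_apply_image, hG0] at a2
      refine (norm_snd_le (z - (0, u))).trans (a2.trans_eq ?_)
      simp
  · filter_upwards [hΦ.eventually_left_inverse] with z hz h h'
    have : G z = 0 := by
      have a : f z.2 = 0 := h'
      simp only [G, a, zero_smul, add_zero, sub_eq_zero]
      exact h
    rw [this] at hz
    rw [hz]

/-- solutions with a small form part converge to a circle of eigenvectors -/
theorem exh (B : Prof b c₀) (h0 : 0 ∉ Spec i T P₁) (hc : c₀ ∉ Spec i T P₁) {α : Type*}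
    (U : Ultrafilter α) {t : α → ℝ} {y : α → E₁}
    (hs : ∀ᶠ a in U, Sol i T j P R Q b (t a) (y a) ∧ P₁ (y a) ≠ 0)
    (hp : Tendsto (fun a => y a - P₁ (y a)) U (𝓝 0)) :
    ∃ l ∈ Spec i T P₁ ∩ Ioo 0 c₀, ∃ v ∈ Eig i T P₁ l, ‖j (i v)‖ ^ 2 ∈ Icc (0 : ℝ) 1 ∧
      b (‖j (i v)‖ ^ 2) = l ∧ Tendsto y U (𝓝 v) := by
  let w : α → E₁ := fun a => ‖P₁ (y a)‖⁻¹ • P₁ (y a)
  let n : α → ℝ := fun a => ‖j (P (i (y a)))‖
  have hw : ∀ᶠ a in U, ‖w a‖ = 1 := hs.mono fun a h => norm_smul_inv_norm h.2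
  obtain ⟨l, hl, v, hv, hn, h1, h2⟩ := D.lim h0 U (w := w) (β := fun a => b (n a ^ 2))
    isCompact_Icc ((hs.and hw).mono fun a h =>
      ⟨by simp only [w, map_smul, D.PP₁], h.2, B.mem (sq_nonneg _)⟩) (by
      have : Tendsto (fun a => ‖R (y a - P₁ (y a))‖) U (𝓝 0) := by
        simpa using ((R.continuous.tendsto _).comp hp).norm
      refine squeeze_zero_norm' ((hs.and hw).mono fun a h => ?_) this
      have e1 : T (w a) - b (n a ^ 2) • i (w a) = -R (y a - P₁ (y a)) (w a) := by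
        have := D.sol_P N h.1.1
        simp only [w, n, map_smul]
        linear_combination (norm := module) ‖P₁ (y a)‖⁻¹ • this
      rw [e1, norm_neg]
      simpa [h.2] using (R (y a - P₁ (y a))).le_opNorm (w a))
  have hv0 : v ≠ 0 := by rintro rfl; simp at hn
  have hS : l ∈ Spec i T P₁ := (Submodule.ne_bot_iff _).2 ⟨v, hv, hv0⟩
  have hl' : l ∈ Ioo 0 c₀ := ⟨hl.1.lt_of_ne fun h => h0 (h ▸ hS), hl.2.lt_of_ne fun h => hc (h ▸ hS)⟩
  have h3 : ∀ᶠ a in U, n a ∈ Icc (0 : ℝ) 1 := (h2.eventually (lt_mem_nhds hl'.1)).mono fun a h =>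
    ⟨norm_nonneg _, not_lt.1 fun h' => h.ne' (B.one _ (one_le_pow₀ h'.le))⟩
  obtain ⟨s, hs', h4⟩ := isCompact_Icc.ultrafilter_le_nhds (U.map n) (le_principal_iff.2 h3)
  have h4' : Tendsto n U (𝓝 s) := h4
  have h5 : Tendsto (fun a => ‖j (i (w a))‖) U (𝓝 ‖j (i v)‖) :=
    (((j.continuous.comp i.continuous).tendsto _).comp h1).norm
  have h6 : ‖j (i v)‖ ≠ 0 := norm_ne_zero_iff.2 (D.ji_ne hv0)
  have h7 : Tendsto (fun a => P₁ (y a)) U (𝓝 ((s / ‖j (i v)‖) • v)) := by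
    refine ((h4'.div h5 h6).smul h1).congr' ?_
    filter_upwards [hs, h5.eventually_ne h6] with a h h'
    have e0 : ‖P₁ (y a)‖ ≠ 0 := norm_ne_zero_iff.2 h.2
    have e1 : n a = ‖P₁ (y a)‖ * ‖j (i (w a))‖ := by
      simp only [w, n, map_smul, norm_smul, norm_inv, norm_norm, D.iP]
      field_simp
    simp only [Pi.div_apply, e1, mul_div_cancel_right₀ _ h', w, smul_inv_smul₀ e0]
  have h8 : ‖j (i ((s / ‖j (i v)‖) • v))‖ = s := by
    rw [map_smul, map_smul, norm_smul, Real.norm_of_nonneg (div_nonneg hs'.1 (norm_nonneg _)),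
      div_mul_cancel₀ _ h6]
  refine ⟨l, ⟨hS, hl'⟩, _, Submodule.smul_mem _ (s / ‖j (i v)‖) hv, ?_, ?_, by simpa using hp.add h7⟩
  · rw [h8]
    exact ⟨sq_nonneg _, pow_le_one₀ hs'.1 hs'.2⟩
  · rw [h8]
    exact tendsto_nhds_unique ((B.sm.continuous.tendsto _).comp (h4'.pow 2)) h2

omit N in
/-- fixing the phase -/
theorem phase {α : Type*} {F : Filter α} {y : α → E₁} {u : E₁} (hP : P₁ u = u) (h0 : u ≠ 0)
    {p q : ℝ} (hn : p ^ 2 + q ^ 2 = 1) (hy : Tendsto y F (𝓝 (p • u + q • J₁ u))) :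
    ∃ θ : α → ℝ, Tendsto (fun a => rot P₁ J₁ (-θ a) (y a)) F (𝓝 u) ∧
      ∀ᶠ a in F, ⟪j (J (i u)), j (i (rot P₁ J₁ (-θ a) (y a)))⟫_ℝ = 0 := by
  have hp := D.ip_pos h0
  have hPi : P (i u) = i u := by rw [← D.iP, hP]
  have r5 := D.ip_J (i u)
  have r6 := D.ip_JJ (i u) (i u)
  rw [hPi] at r6
  set m := ⟪j (i u), j (i u)⟫_ℝ with hm
  let z : E₁ → ℂ := fun x => ⟪j (i u), j (i x)⟫_ℝ + ⟪j (J (i u)), j (i x)⟫_ℝ * Complex.I
  have hz : Continuous z := by fun_prop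
  have hz0 : z (p • u + q • J₁ u) = (p * m : ℝ) + (q * m : ℝ) * Complex.I := by
    simp only [z, map_add, map_smul, inner_add_right, real_inner_smul_right, D.iJ, r5, r6,
      real_inner_comm (j (J (i u))) (j (i u)), mul_zero, add_zero, zero_add, ← hm]
  have hN : ‖z (p • u + q • J₁ u)‖ = m := by
    rw [hz0, Complex.norm_add_mul_I, Real.sqrt_eq_iff_mul_self_eq (by positivity) hp.le]
    linear_combination m ^ 2 * hn
  have h1 := (hz.tendsto _).comp hy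
  have h2 := h1.norm
  rw [hN] at h2
  have h3 : ∀ᶠ a in F, z (y a) ≠ 0 := (h2.eventually_ne hp.ne').mono fun a h => norm_ne_zero_iff.1 h
  have hc : Tendsto (fun a => Real.cos (Complex.arg (z (y a)))) F (𝓝 p) := by
    have := ((Complex.continuous_re.tendsto _).comp h1).div h2 hp.ne'
    rw [hz0] at this
    simp only [Complex.add_re, Complex.ofReal_re, Complex.mul_re, Complex.I_re, mul_zero,
      Complex.ofReal_im, Complex.I_im, sub_self, add_zero, mul_div_cancel_right₀ _ hp.ne',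
      zero_mul] at this
    exact this.congr' (h3.mono fun a h => (Complex.cos_arg h).symm)
  have hs : Tendsto (fun a => Real.sin (Complex.arg (z (y a)))) F (𝓝 q) := by
    have := ((Complex.continuous_im.tendsto _).comp h1).div h2 hp.ne'
    rw [hz0] at this
    simp only [Complex.add_im, Complex.ofReal_re, Complex.mul_im, Complex.I_re, mul_zero,
      Complex.ofReal_im, Complex.I_im, add_zero, zero_add, mul_one,
      mul_div_cancel_right₀ _ hp.ne'] at this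
    exact this.congr fun a => (Complex.sin_arg _).symm
  refine ⟨fun a => Complex.arg (z (y a)), ?_, h3.mono fun a h => ?_⟩
  · have a1 := (P₁.continuous.tendsto _).comp hy
    have a2 := (J₁.continuous.tendsto _).comp hy
    have := ((hy.sub a1).add (hc.smul a1)).add (hs.neg.smul a2)
    have e1 : p • u + q • J₁ u - P₁ (p • u + q • J₁ u) + p • P₁ (p • u + q • J₁ u) +
        -q • J₁ (p • u + q • J₁ u) = u := by
      simp only [map_add, map_smul, hP, D.PJ₁, D.JJ₁]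
      linear_combination (norm := module) hn • u
    rw [e1] at this
    simpa only [rot, Real.cos_neg, Real.sin_neg, comp_apply] using this
  · have a1 : ⟪j (J (i u)), j (P (i (y a)))⟫_ℝ = ⟪j (J (i u)), j (i (y a))⟫_ℝ := by
      rw [← D.Psym, D.PJ]
    have a2 : ⟪j (J (i u)), j (J (i (y a)))⟫_ℝ = ⟪j (i u), j (i (y a))⟫_ℝ := by
      rw [D.ip_JJ, ← D.Psym, hPi]
    simp only [rot, Real.cos_neg, Real.sin_neg, Complex.cos_arg h, Complex.sin_arg, map_add,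
      map_sub, map_smul, inner_add_right, inner_sub_right, real_inner_smul_right, D.iP, D.iJ, a1,
      a2]
    simp only [z, Complex.add_re, Complex.add_im, Complex.ofReal_re, Complex.ofReal_im,
      Complex.mul_re, Complex.mul_im, Complex.I_re, Complex.I_im]
    ring

end Dat

/-- **IFT** -/
theorem ift : IftStmt := by
  intro E₁ E₀ H _ _ _ _ _ _ _ _ i T j P₁ J₁ P J e R Q b c₀ D N B hS h0 hc
  have hfin : (Spec i T P₁ ∩ Ioo 0 c₀).Finite :=
    (D.finite h0 isCompact_Icc).subset (inter_subset_inter_right _ Ioo_subset_Icc_self)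
  refine ⟨hfin, ?_⟩
  have hu : ∀ l, ∃ u, l ∈ Spec i T P₁ ∩ Ioo 0 c₀ → u ∈ Eig i T P₁ l ∧
      ‖j (i u)‖ ^ 2 ∈ Ioo (0 : ℝ) 1 ∧ b (‖j (i u)‖ ^ 2) = l := fun l => by
    by_cases hl : l ∈ Spec i T P₁ ∩ Ioo 0 c₀
    · obtain ⟨v, hv, hv0⟩ := (Submodule.ne_bot_iff _).1 hl.1
      obtain ⟨s, hs, e1⟩ := B.exists_eq hl.2
      have : ‖j (i ((√s / ‖j (i v)‖) • v))‖ ^ 2 = s := by
        rw [map_smul, map_smul, norm_smul, Real.norm_of_nonneg (by positivity),
          div_mul_cancel₀ _ (norm_ne_zero_iff.2 (D.ji_ne hv0)), Real.sq_sqrt hs.1.le]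
      exact ⟨_, fun _ => ⟨Submodule.smul_mem _ (√s / ‖j (i v)‖) hv, this.symm ▸ hs, this.symm ▸ e1⟩⟩
    · exact ⟨0, fun h => absurd h hl⟩
  choose u hu using hu
  have hx : ∀ l, ∃ (x : ℝ → E₁) (K : ℝ), l ∈ Spec i T P₁ ∩ Ioo 0 c₀ →
      (∀ᶠ t in 𝓝 (0 : ℝ), Sol i T j P R Q b t (x t) ∧ ‖x t - u l‖ ≤ K * |t|) ∧
      ∀ᶠ z in 𝓝 ((0 : ℝ), u l), Sol i T j P R Q b z.1 z.2 →
        ⟪j (J (i (u l))), j (i z.2)⟫_ℝ = 0 → z.2 = x z.1 := fun l => by
    by_cases hl : l ∈ Spec i T P₁ ∩ Ioo 0 c₀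
    · obtain ⟨a1, a2, a3⟩ := hu l hl
      obtain ⟨x, K, h⟩ := D.loc N B a1 (hS l (Ioo_subset_Icc_self hl.2)) a2 a3
      exact ⟨x, K, fun _ => h⟩
    · exact ⟨0, 0, fun h => absurd h hl⟩
  choose x K hx using hx
  obtain ⟨K₀, hK⟩ := (hfin.image K).bddAbove
  have h1 : ∀ᶠ t in 𝓝 (0 : ℝ), ∀ l ∈ Spec i T P₁ ∩ Ioo 0 c₀,
      Sol i T j P R Q b t (x l t) ∧ ‖x l t - u l‖ ≤ K₀ * |t| :=
    (eventually_all_finite hfin).2 fun l hl => (hx l hl).1.mono fun t h =>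
      ⟨h.1, h.2.trans (mul_le_mul_of_nonneg_right (hK ⟨l, hl, rfl⟩) (abs_nonneg t))⟩
  let φ : ℝ × E₁ → ℝ × E₁ := fun z => (z.1, z.2 - P₁ z.2)
  have h2 : ∀ᶠ z in comap φ (𝓝 0), Sol i T j P R Q b z.1 z.2 → P₁ z.2 ≠ 0 →
      ∃ l ∈ Spec i T P₁ ∩ Ioo 0 c₀, ∃ θ, z.2 = rot P₁ J₁ θ (x l z.1) := by
    refine mem_iff_ultrafilter.2 fun U hU => ?_
    by_cases hs : ∀ᶠ z : ℝ × E₁ in U, Sol i T j P R Q b z.1 z.2 ∧ P₁ z.2 ≠ 0
    swap
    · exact (Ultrafilter.eventually_not.2 hs).mono fun z h a b => absurd ⟨a, b⟩ h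
    have hφ : Tendsto φ U (𝓝 0) := tendsto_iff_comap.2 hU
    have ht : Tendsto (fun z : ℝ × E₁ => z.1) U (𝓝 0) := (continuous_fst.tendsto _).comp hφ
    obtain ⟨l, hl, v, hv, a1, a2, a3⟩ := D.exh N B h0 hc U hs ((continuous_snd.tendsto _).comp hφ)
    obtain ⟨b1, b2, b3⟩ := hu l hl
    have hu0 : u l ≠ 0 := fun h => by simpa [h] using b2.1
    obtain ⟨p, q, rfl⟩ := D.span (hS l (Ioo_subset_Icc_self hl.2)) b1 hu0 hv
    have e1 := B.anti.injOn a1 (Ioo_subset_Icc_self b2) (a2.trans b3.symm)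
    have hn : p ^ 2 + q ^ 2 = 1 := by
      have r5 := D.ip_J (i (u l))
      have r6 := D.ip_JJ (i (u l)) (i (u l))
      rw [← D.iP, (mem_Eig.1 b1).1] at r6
      rw [← real_inner_self_eq_norm_sq, ← real_inner_self_eq_norm_sq] at e1
      simp only [map_add, map_smul, inner_add_left, inner_add_right, real_inner_smul_left,
        real_inner_smul_right, D.iJ, r5, r6, real_inner_comm (j (J (i (u l)))) (j (i (u l)))] at e1
      exact mul_right_cancel₀ (D.ip_pos hu0).ne' (by linarith)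
    obtain ⟨θ, c1, c2⟩ := D.phase (mem_Eig.1 b1).1 hu0 hn a3
    filter_upwards [(ht.prodMk_nhds c1).eventually (hx l hl).2, c2] with z d1 d2 d3 _
    exact ⟨l, hl, θ z, by rw [← d1 (D.sol_rot N d3 _) d2, D.rot_rot]⟩
  obtain ⟨ε₁, e1, h1⟩ := Metric.eventually_nhds_iff.1 h1
  obtain ⟨ε₂, e2, h2⟩ := Metric.eventually_nhds_iff.1 (eventually_comap.1 h2)
  refine ⟨u, x, min ε₁ ε₂, K₀, lt_min e1 e2, hu, fun t ht => ⟨h1 ?_, fun y hy hP hε => ?_⟩⟩
  · simpa using ht.trans_le (min_le_left _ _)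
  · refine h2 (y := φ (t, y)) ?_ (t, y) rfl hy hP
    rw [dist_zero_right, Prod.norm_def]
    exact max_lt (ht.trans_le (min_le_right _ _)) (hε.trans_le (min_le_right _ _))

end Crest.Agent.X212.Rad96
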